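import Vale.Agent.P338.H763.Lib2
import Vale.Agent.P338.CoreSpecE
import Vale.Agent.P338.H811.Reduce
import Vale.Agent.P338.H373.ExpsE
import Vale.Agent.P338.H666.Rename
import Vale.Agent.P338.Reg

/-!
# Third pass of the fast operation: shift, reduce modulo `2^b+1`, write the `b` low bits

The program is written over its own registers `Q`; states are given by the structure `St`
(rulers as numbers).
-/

namespace Vale.Agent.P338.H765

open Vale.Agent.P338 Vale.Agent.P338.H811

/-- Registers of the pass. -/
inductive Q : Type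
  | inp | X | out | z | u | acc | new | bor
  | a | a' | c | cc | b | b' | n | n' | k | k' | j' | g | g' | l | l'
  deriving DecidableEq

/-- State: streams as lists, rulers as numbers. -/
structure St where
  inp : List Bool
  X : List Bool
  out : List Bool
  z : List Bool
  u : List Bool
  acc : List Bool
  new : List Bool
  bor : List Bool
  a : ℕ
  a' : ℕ
  c : ℕ
  cc : ℕ
  b : ℕ
  b' : ℕ
  n : ℕ
  n' : ℕ
  k : ℕ
  k' : ℕ
  j' : ℕ
  g : ℕ
  g' : ℕ
  l : ℕ
  l' : ℕ

/-- the store described by a state -/
def St.store (s : St) : Store Q Bool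
  | .inp => s.inp
  | .X => s.X
  | .out => s.out
  | .z => s.z
  | .u => s.u
  | .acc => s.acc
  | .new => s.new
  | .bor => s.bor
  | .a => zer s.a
  | .a' => zer s.a'
  | .c => zer s.c
  | .cc => zer s.cc
  | .b => zer s.b
  | .b' => zer s.b'
  | .n => zer s.n
  | .n' => zer s.n'
  | .k => zer s.k
  | .k' => zer s.k'
  | .j' => zer s.j'
  | .g => zer s.g
  | .g' => zer s.g'
  | .l => zer s.l
  | .l' => zer s.l'

theorem zer_succ (n : ℕ) : zer (n + 1) = false :: zer n := rfl
theorem zer_zero : zer 0 = [] := rfl
theorem zer_reverse (n : ℕ) : (zer n).reverse = zer n := by simp [zer]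
theorem zer_length (n : ℕ) : (zer n).length = n := by simp [zer]
theorem zer_append (m n : ℕ) : zer m ++ zer n = zer (m + n) := by simp [zer]

/-- The for-loop on states: `set s i j` sets the ruler to `i` and its shadow to `j`. -/
theorem forR_St {x y : Q} (hxy : x ≠ y) {p : Prog Q Bool} (set : St → ℕ → ℕ → St)
    (hset : ∀ s i j, (set s i j).store =
      Function.update (Function.update s.store x (zer i)) y (zer j))
    (n c : ℕ) (f : ℕ → St)
    (body : ∀ i, i < n → Runs p (set (f i) (n - (i + 1)) (i + 1)).store
      (set (f (i + 1)) (n - (i + 1)) (i + 1)).store c)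
    {s s' : St} (hs : s = set (f 0) n 0) (hs' : s' = set (f n) n 0) :
    Runs (.forR x y p) s.store s'.store (n * (c + 4) + 2) := by
  subst hs hs'
  have h := Runs.forR (p := p) hxy (a := false) (n := n)
    (fun i => Function.update (Function.update (f i).store x (zer n)) y []) c
    (by simp [hxy, zer]) (by simp)
    (by
      intro i hi
      have h1 := body i hi
      rw [hset, hset] at h1
      refine (?_ : Runs p _ _ c)
      convert h1 using 1
      · funext r
        simp only [Function.update_apply, zer, show n - 1 - i = n - (i + 1) by omega]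
        split_ifs <;> rfl
      · funext r
        simp only [Function.update_apply, zer, show n - 1 - i = n - (i + 1) by omega]
        split_ifs <;> rfl)
  rw [hset, hset]
  refine h.conv ?_ le_rfl
  funext r
  simp only [Function.update_apply, zer]
  split_ifs <;> rfl

def setA (s : St) (i j : ℕ) : St := {s with a := i, a' := j}
def setB (s : St) (i j : ℕ) : St := {s with b := i, b' := j}
def setN (s : St) (i j : ℕ) : St := {s with n := i, n' := j}
def setK (s : St) (i j : ℕ) : St := {s with k := i, k' := j}
def setG (s : St) (i j : ℕ) : St := {s with g := i, g' := j}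

theorem setA_self (s : St) (h : s.a' = 0) : setA s s.a 0 = s := by
  cases s; simp_all [setA]
theorem setB_self (s : St) (h : s.b' = 0) : setB s s.b 0 = s := by
  cases s; simp_all [setB]
theorem setN_self (s : St) (h : s.n' = 0) : setN s s.n 0 = s := by
  cases s; simp_all [setN]
theorem setK_self (s : St) (h : s.k' = 0) : setK s s.k 0 = s := by
  cases s; simp_all [setK]
theorem setG_self (s : St) (h : s.g' = 0) : setG s s.g 0 = s := by
  cases s; simp_all [setG]

theorem setA_store (s : St) (i j : ℕ) : (setA s i j).store =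
    Function.update (Function.update s.store .a (zer i)) .a' (zer j) := by
  funext r; cases r <;> rfl
theorem setB_store (s : St) (i j : ℕ) : (setB s i j).store =
    Function.update (Function.update s.store .b (zer i)) .b' (zer j) := by
  funext r; cases r <;> rfl
theorem setN_store (s : St) (i j : ℕ) : (setN s i j).store =
    Function.update (Function.update s.store .n (zer i)) .n' (zer j) := by
  funext r; cases r <;> rfl
theorem setK_store (s : St) (i j : ℕ) : (setK s i j).store =
    Function.update (Function.update s.store .k (zer i)) .k' (zer j) := by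
  funext r; cases r <;> rfl
theorem setG_store (s : St) (i j : ℕ) : (setG s i j).store =
    Function.update (Function.update s.store .g (zer i)) .g' (zer j) := by
  funext r; cases r <;> rfl

/-- `n`-fold repetition -/
def repP {R Γ : Type} [DecidableEq R] : ℕ → Prog R Γ → Prog R Γ
  | 0, _ => .nop
  | n + 1, p => .seq p (repP n p)

/-! ### Input of bits of a slot -/

/-- move `t` bits from the input to `z` -/
def St.mvz (s : St) (t : ℕ) : St :=
  {s with inp := s.inp.drop t, z := (s.inp.take t).reverse ++ s.z}

/-- drop `t` bits of the input -/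
def St.skp (s : St) (t : ℕ) : St := {s with inp := s.inp.drop t}

theorem St.mvz_zero (s : St) : s.mvz 0 = s := by simp [St.mvz]
theorem St.skp_zero (s : St) : s.skp 0 = s := by simp [St.skp]

theorem mv_inp_z (s : St) (h : 1 ≤ s.inp.length) :
    Runs (.mv .inp .z) s.store (s.mvz 1).store 1 := by
  obtain ⟨x, r, hx⟩ : ∃ x r, s.inp = x :: r := by
    cases h' : s.inp with
    | nil => simp [h'] at h
    | cons x r => exact ⟨x, r, rfl⟩
  refine (Runs.mv_cons (s := s.store) (r := .inp) (q := .z) (by decide) hx).conv ?_ le_rfl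
  funext r'; cases r' <;> simp [St.store, St.mvz, hx]

theorem St.mvz_mvz (s : St) (t t' : ℕ) : (s.mvz t).mvz t' = s.mvz (t + t') := by
  simp [St.mvz, List.take_add]

theorem rep_mv_inp_z (t : ℕ) (s : St) (h : t ≤ s.inp.length) :
    Runs (repP t (.mv .inp .z)) s.store (s.mvz t).store (t + 1) := by
  induction t generalizing s with
  | zero => exact (Runs.nop s.store).conv (by simp [St.mvz]) (by omega)
  | succ t ih =>
    have h1 := mv_inp_z s (by omega)
    have h2 := ih (s.mvz 1) (by simp [St.mvz]; omega)
    refine (h1.seq h2).conv ?_ (by omega)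
    rw [St.mvz_mvz, Nat.add_comm]

theorem for_mv_inp_z (t : ℕ) (s : St) (hb : s.b' = 0) (h : t * s.b ≤ s.inp.length) :
    Runs (.forR .b .b' (repP t (.mv .inp .z))) s.store (s.mvz (t * s.b)).store
      (s.b * (t + 5) + 2) := by
  refine forR_St (by decide) setB setB_store s.b (t + 1)
    (fun i => s.mvz (t * i)) (fun i hi => ?_) ?_ ?_
  · have h1 : t * i + t ≤ s.inp.length := by
      calc t * i + t = t * (i + 1) := by ring
        _ ≤ t * s.b := Nat.mul_le_mul_left _ hi
        _ ≤ _ := h
    have := rep_mv_inp_z t (setB (s.mvz (t * i)) (s.b - (i + 1)) (i + 1))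
      (by simp [setB, St.mvz]; omega)
    refine this.conv ?_ le_rfl
    simp [setB, St.mvz, List.take_add, Nat.mul_succ]
  · rw [Nat.mul_zero, St.mvz_zero, setB_self s hb]
  · exact (setB_self (s.mvz (t * s.b)) hb).symm

theorem pop_inp (s : St) : Runs (.pop .inp) s.store (s.skp 1).store 1 := by
  refine (Runs.pop .inp s.store).conv ?_ le_rfl
  funext r'; cases r' <;> simp [St.store, St.skp]

theorem rep_pop_inp (t : ℕ) (s : St) :
    Runs (repP t (.pop .inp)) s.store (s.skp t).store (t + 1) := by
  induction t generalizing s with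
  | zero => exact (Runs.nop s.store).conv (by simp [St.skp]) (by omega)
  | succ t ih =>
    refine ((pop_inp s).seq (ih (s.skp 1))).conv ?_ (by omega)
    simp [St.skp]

theorem for_pop_inp (t : ℕ) (s : St) (hb : s.b' = 0) :
    Runs (.forR .b .b' (repP t (.pop .inp))) s.store (s.skp (t * s.b)).store
      (s.b * (t + 5) + 2) := by
  refine forR_St (by decide) setB setB_store s.b (t + 1)
    (fun i => s.skp (t * i)) (fun i hi => ?_) ?_ ?_
  · refine (rep_pop_inp t (setB (s.skp (t * i)) (s.b - (i + 1)) (i + 1))).conv ?_ le_rfl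
    simp [setB, St.skp, Nat.mul_succ]
  · rw [Nat.mul_zero, St.skp_zero, setB_self s hb]
  · exact (setB_self (s.skp (t * s.b)) hb).symm

/-! ### One chunk of the reduction -/

/-- a bit, `false` when there is none -/
def bo (o : Option Bool) : Bool := o.getD false

/-- one step of the subtraction -/
def subAct : Prog Q Bool := .act fun t r =>
  match r with
  | .u => .pop
  | .acc => .pop
  | .new => .push (subBit (bo (t .u)) (bo (t .acc)) (bo (t .bor)))
  | .bor => .rep (subBor (bo (t .u)) (bo (t .acc)) (bo (t .bor)))
  | _ => .nop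

theorem sub_loop (x y : List Bool) (hxy : x.length = y.length) (c : Bool) (s : St)
    (hu : s.u = x) (hacc : s.acc = y) (hbor : s.bor = [c]) :
    Runs (.whileNE .u subAct) s.store
      {s with u := [], acc := [], new := (subOut x y c).reverse ++ s.new, bor := [subBorrow x y c]}.store (2 * x.length + 1) := by
  induction x generalizing y c s with
  | nil =>
    cases y with
    | cons _ _ => simp at hxy
    | nil =>
      refine (Runs.whileNE_nil (by simpa [St.store] using hu)).conv ?_ (by simp)
      funext r'; cases r' <;> simp [St.store, subOut, subBorrow, hu, hacc, hbor]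
  | cons a x ih =>
    cases y with
    | nil => simp at hxy
    | cons b y =>
      have h1 : Runs subAct s.store {s with u := x, acc := y, new := subBit a b c :: s.new, bor := [subBor a b c]}.store 1 := by
        refine (Runs.act _ _).conv ?_ le_rfl
        funext r'
        cases r' <;> simp [St.store, Store.tops, Op.app, hu, hacc, hbor, bo]
      have h2 := ih y (by simpa using hxy) (subBor a b c)
        {s with u := x, acc := y, new := subBit a b c :: s.new, bor := [subBor a b c]} rfl rfl rfl
      refine (Runs.whileNE_cons (s := s.store) (r := .u) (a := a) (l := x) hu h1 h2).conv ?_ ?_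
      · simp [subOut, subBorrow]
      · simp only [List.length_cons]; omega

/-- one chunk: `b` bits from `z`, subtract the accumulator and the borrow -/
def chunkP : Prog Q Bool :=
  .seq (.forR .b .b' (.mv .z .u)) (.seq (.whileNE .u subAct) (.flip .new .acc))

theorem for_mv_z_u (s : St) (hb : s.b' = 0) (hu : s.u = []) (x r : List Bool) (hz : s.z = x ++ r)
    (hx : x.length = s.b) :
    Runs (.forR .b .b' (.mv .z .u)) s.store {s with z := r, u := x.reverse}.store
      (s.b * 5 + 2) := by
  have h := Runs.xfer (s := s.store) (r := Q.b) (q := Q.b') (src := .z) (dst := .u)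
    (by decide) (by decide) (by decide) (by decide) (by decide) (by decide)
    (a := false) (n := s.b) (u := x) (v := r) rfl (by simp [St.store, hb, zer]) hz hx
  refine h.conv ?_ (by omega)
  funext r'; cases r' <;> simp [St.store, hu]

theorem chunk_run (s : St) (hb : s.b' = 0) (hu : s.u = []) (hnew : s.new = [])
    (x r y : List Bool) (c : Bool) (hz : s.z = x ++ r) (hx : x.length = s.b)
    (hacc : s.acc = y) (hy : y.length = s.b) (hbor : s.bor = [c]) :
    Runs chunkP s.store
      {s with z := r, acc := subOut x.reverse y c, bor := [subBorrow x.reverse y c]}.store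
      (9 * s.b + 4) := by
  have h1 := for_mv_z_u s hb hu x r hz hx
  have h2 := sub_loop x.reverse y (by simp [hx, hy]) c {s with z := r, u := x.reverse}
    rfl hacc hbor
  have h3 := Runs.flip (r := Q.new) (q := Q.acc) (by decide)
    (St.store {s with z := r, u := [], acc := [], new := (subOut x.reverse y c).reverse ++ s.new, bor := [subBorrow x.reverse y c]})
  refine (h1.seq (h2.seq h3)).conv ?_ ?_
  · funext r'; cases r' <;> simp [St.store, hnew, hu]
  · have : (subOut x.reverse y c).length = s.b := by
      rw [length_subOut _ _ _ (by simp [hx, hy])]; simp [hx]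
    simp [St.store, hnew, hx, this]
    omega

/-- chunks read from a reversed list -/
def chunksRev (b : ℕ) : ℕ → List Bool → List (List Bool)
  | 0, _ => []
  | t + 1, z => (z.take b).reverse :: chunksRev b t (z.drop b)

theorem chunksRev_flatten (b : ℕ) (cs : List (List Bool)) (h : ∀ c ∈ cs, c.length = b) :
    chunksRev b cs.length (cs.reverse.flatten).reverse = cs := by
  induction cs with
  | nil => rfl
  | cons c cs ih =>
    have hc : c.length = b := h c (by simp)
    have h1 : ((c :: cs).reverse.flatten).reverse = c.reverse ++ (cs.reverse.flatten).reverse := by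
      simp
    rw [h1, List.length_cons, chunksRev]
    have h2 : c.reverse.length = b := by simp [hc]
    rw [List.take_left' h2, List.drop_left' h2, List.reverse_reverse,
      ih fun c' hc' => h c' (List.mem_cons_of_mem _ hc')]

theorem chunksRev_eq {b t : ℕ} (z : List Bool) (hz : z.length = b * t) :
    chunksRev b t z.reverse = chunksOf b t (lval z) := by
  have h := chunksRev_flatten b (chunksOf b t (lval z)) (length_mem_chunksOf b t _)
  rwa [← list_eq_chunksOf z hz, length_chunksOf] at h

theorem chunks_run (t : ℕ) (s : St) (hb : s.b' = 0) (hu : s.u = []) (hnew : s.new = [])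
    (x r : List Bool) (st : List Bool × Bool) (hz : s.z = x ++ r) (hx : x.length = s.b * t)
    (hacc : s.acc = st.1) (hy : st.1.length = s.b) (hbor : s.bor = [st.2]) :
    Runs (repP t chunkP) s.store
      {s with z := r, acc := ((chunksRev s.b t x).foldl redStep st).1, bor := [((chunksRev s.b t x).foldl redStep st).2]}.store
      (t * (9 * s.b + 4) + 1) := by
  induction t generalizing s x st with
  | zero =>
    refine (Runs.nop s.store).conv ?_ (by omega)
    have : x = [] := by simpa using hx
    subst this
    funext r'; cases r' <;> simp [St.store, hz, hacc, hbor, chunksRev]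
  | succ t ih =>
    have hx1 : s.b ≤ x.length := by rw [hx]; exact Nat.le_mul_of_pos_right _ (by omega)
    have hx2 : (x.take s.b).length = s.b := by simp [hx1]
    have h1 := chunk_run s hb hu hnew (x.take s.b) (x.drop s.b ++ r) st.1 st.2
      (by rw [hz, ← List.append_assoc, List.take_append_drop]) hx2 hacc hy hbor
    have h2 := ih {s with z := x.drop s.b ++ r, acc := subOut (x.take s.b).reverse st.1 st.2, bor := [subBorrow (x.take s.b).reverse st.1 st.2]} hb hu hnew (x.drop s.b)
      (redStep st (x.take s.b).reverse) rfl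
      (by simp only [List.length_drop, hx]; rw [Nat.mul_succ, Nat.add_sub_cancel]) rfl
      (by simp only [redStep]; rw [length_subOut _ _ _ (by simp [hx1, hy])]; simp [hx1]) rfl
    refine (h1.seq h2).conv ?_ ?_
    · simp [chunksRev]
    · simp only []
      ring_nf
      omega

/-! ### Output of a reduced slot -/

/-- one step of the final increment -/
def incAct : Prog Q Bool := .act fun t r =>
  match r with
  | .acc => .pop
  | .out => .push (xor (bo (t .acc)) (bo (t .bor)))
  | .bor => .rep (bo (t .acc) && bo (t .bor))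
  | _ => .nop

theorem inc_loop (x : List Bool) (c : Bool) (s : St) (hacc : s.acc = x) (hbor : s.bor = [c]) :
    Runs (.whileNE .acc incAct) s.store
      {s with acc := [], out := (incOut x c).reverse ++ s.out, bor := [incCarry x c]}.store
      (2 * x.length + 1) := by
  induction x generalizing c s with
  | nil =>
    refine (Runs.whileNE_nil (by simpa [St.store] using hacc)).conv ?_ (by simp)
    funext r'; cases r' <;> simp [St.store, incOut, incCarry, hacc, hbor]
  | cons a x ih =>
    have h1 : Runs incAct s.store {s with acc := x, out := (xor a c) :: s.out, bor := [a && c]}.store 1 := by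
      refine (Runs.act _ _).conv ?_ le_rfl
      funext r'
      cases r' <;> simp [St.store, Store.tops, Op.app, hacc, hbor, bo]
    have h2 := ih (a && c) {s with acc := x, out := (xor a c) :: s.out, bor := [a && c]} rfl rfl
    refine (Runs.whileNE_cons (s := s.store) (r := .acc) (a := a) (l := x) hacc h1 h2).conv ?_ ?_
    · simp [incOut, incCarry]
    · simp only [List.length_cons]; omega

/-! ### A whole slot -/

/-- shift by `a`, reduce modulo `2^b+1`, output -/
def slotP : Prog Q Bool :=
  .seq (.forR .a .a' (.push .z false))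
  (.seq (.forR .b .b' (repP 13 (.mv .inp .z)))
  (.seq (.forR .a .a' (.pop .z))
  (.seq (.forR .b .b' (.push .acc false))
  (.seq (.push .bor false)
  (.seq (repP 13 chunkP)
  (.seq (.whileNE .acc incAct) (.pop .bor)))))))

theorem slot_run (s : St) (ha : s.a' = 0) (hb : s.b' = 0) (hz : s.z = []) (hu : s.u = [])
    (hacc : s.acc = []) (hnew : s.new = []) (hbor : s.bor = []) (hab : s.a ≤ 2 * s.b)
    (y r : List Bool) (hinp : s.inp = y ++ r) (hy : y.length = 13 * s.b) :
    Runs slotP s.store
      {s with inp := r, out := (E.slot3 s.b s.a y).reverse ++ s.out}.store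
      (180 * s.b + 80) := by
  -- zeros
  have h1 := Runs.fill (s := s.store) (r := Q.a) (q := Q.a') (dst := .z) (a := false) (b := false)
    (n := s.a) (by decide) (by decide) (by decide) rfl (by simp [St.store, ha, zer])
  have e1 : Function.update s.store Q.z (List.replicate s.a false ++ s.store Q.z) =
      ({s with z := zer s.a} : St).store := by
    funext r'; cases r' <;> simp [St.store, hz, zer]
  rw [e1] at h1
  -- the slot
  have h2 := for_mv_inp_z 13 ({s with z := zer s.a} : St) hb (by simp [hinp, hy])
  have e2 : (({s with z := zer s.a} : St).mvz (13 * s.b)).store =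
      ({s with inp := r, z := (zer s.a ++ y).reverse} : St).store := by
    funext r'
    cases r' <;> simp [St.store, St.mvz, hinp, ← hy, zer_reverse]
  rw [e2] at h2
  -- drop the top bits
  have hzr : (zer s.a ++ y).reverse = (y.reverse ++ zer s.a) := by simp [zer_reverse]
  have h3 := Runs.skip (s := ({s with inp := r, z := (zer s.a ++ y).reverse} : St).store)
    (r := Q.a) (q := Q.a') (src := .z) (a := false) (n := s.a)
    (u := (zer s.a ++ y).reverse.take s.a) (v := (zer s.a ++ y).reverse.drop s.a)
    (by decide) (by decide) (by decide) rfl (by simp [St.store, ha, zer])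
    (by simp [St.store]) (by simp [zer_length])
  have hsl : (zer s.a ++ y).reverse.drop s.a = (E.slot2 s.b s.a y).reverse := by
    unfold E.slot2
    have : 11 * s.b + (2 * s.b - s.a) = y.length - s.a := by omega
    rw [this, List.drop_reverse]
    congr 1
    rw [List.length_append, zer_length, Nat.add_sub_cancel_left]
    by_cases hay : s.a ≤ y.length
    · conv_lhs => rw [show y.length = s.a + (y.length - s.a) by omega]
      rw [List.take_append, zer_length, Nat.add_sub_cancel_left, List.take_of_length_le]
      rw [zer_length]; omega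
    · exfalso; omega
  rw [hsl] at h3
  have e3 : Function.update ({s with inp := r, z := (zer s.a ++ y).reverse} : St).store Q.z
      (E.slot2 s.b s.a y).reverse =
      ({s with inp := r, z := (E.slot2 s.b s.a y).reverse} : St).store := by
    funext r'; cases r' <;> simp [St.store]
  rw [e3] at h3
  -- accumulator
  have h4 := Runs.fill (s := ({s with inp := r, z := (E.slot2 s.b s.a y).reverse} : St).store)
    (r := Q.b) (q := Q.b') (dst := .acc) (a := false) (b := false)
    (n := s.b) (by decide) (by decide) (by decide) rfl (by simp [St.store, hb, zer])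
  have h5 := Runs.push Q.bor false (Function.update
    ({s with inp := r, z := (E.slot2 s.b s.a y).reverse} : St).store Q.acc
    (List.replicate s.b false ++
      ({s with inp := r, z := (E.slot2 s.b s.a y).reverse} : St).store Q.acc))
  have e5 : Function.update (Function.update
    ({s with inp := r, z := (E.slot2 s.b s.a y).reverse} : St).store Q.acc
    (List.replicate s.b false ++
      ({s with inp := r, z := (E.slot2 s.b s.a y).reverse} : St).store Q.acc)) Q.bor
      (false :: (Function.update
    ({s with inp := r, z := (E.slot2 s.b s.a y).reverse} : St).store Q.acc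
    (List.replicate s.b false ++
      ({s with inp := r, z := (E.slot2 s.b s.a y).reverse} : St).store Q.acc)) Q.bor) =
      ({s with inp := r, z := (E.slot2 s.b s.a y).reverse, acc := zer s.b, bor := [false]} : St).store := by
    funext r'; cases r' <;> simp [St.store, hacc, hbor, zer]
  rw [e5] at h5
  -- chunks
  have hlen : (E.slot2 s.b s.a y).length = s.b * 13 := by
    unfold E.slot2
    rw [List.length_append, zer_length, List.length_take]
    omega
  have h6 := chunks_run 13 ({s with inp := r, z := (E.slot2 s.b s.a y).reverse, acc := zer s.b, bor := [false]} : St) hb hu hnew (E.slot2 s.b s.a y).reverse [] (zer s.b, false)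
        (by simp) (by simp [hlen]) rfl (by simp [zer_length]) rfl
  simp only [] at h6
  rw [chunksRev_eq _ hlen] at h6
  set st := (chunksOf s.b 13 (lval (E.slot2 s.b s.a y))).foldl redStep (zer s.b, false) with hst
  have h7 := inc_loop st.1 st.2 ({s with inp := r, z := [], acc := st.1, bor := [st.2]} : St)
    rfl rfl
  simp only [] at h7
  have h8 := Runs.pop Q.bor ({s with inp := r, z := [], acc := [], out := (incOut st.1 st.2).reverse ++ s.out, bor := [incCarry st.1 st.2]} : St).store
  have hst1 : st.1.length = s.b := by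
    have := (redAll_spec s.b (chunksOf s.b 13 (lval (E.slot2 s.b s.a y)))
      (length_mem_chunksOf _ _ _)).1
    exact this
  have hres : incOut st.1 st.2 = E.slot3 s.b s.a y := by
    have h := redOut_list (b := s.b) (t := 13) (E.slot2 s.b s.a y) hlen
    exact h
  refine (h1.seq (h2.seq (h3.seq (h4.seq (h5.seq (h6.seq (h7.seq h8))))))).conv ?_ ?_
  · funext r'
    cases r' <;> simp [St.store, hz, hacc, hbor, hres]
  · simp only [hst1]
    omega

/-! ### Concatenations -/

theorem cat_zero (f : ℕ → List Bool) : cat 0 f = [] := rfl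

theorem cat_succ (n : ℕ) (f : ℕ → List Bool) : cat (n + 1) f = cat n f ++ f n := by
  simp [cat, List.range_succ]

theorem cat_succ' (n : ℕ) (f : ℕ → List Bool) :
    cat (n + 1) f = f 0 ++ cat n fun i => f (i + 1) := by
  simp [cat, List.range_succ_eq_map, List.flatMap_map]

theorem cat_next {n i : ℕ} (hi : i < n) (f : ℕ → List Bool) :
    cat (n - i) (fun j => f (i + j)) = f i ++ cat (n - (i + 1)) (fun j => f (i + 1 + j)) := by
  obtain ⟨d, hd⟩ : ∃ d, n - i = d + 1 := ⟨n - i - 1, by omega⟩
  rw [hd, cat_succ', show n - (i + 1) = d by omega]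
  congr 2
  funext j
  rw [show i + (j + 1) = i + 1 + j by omega]

theorem cat_length {n c : ℕ} {f : ℕ → List Bool} (h : ∀ i < n, (f i).length = c) :
    (cat n f).length = n * c := by
  induction n with
  | zero => simp [cat_zero]
  | succ n ih =>
    rw [cat_succ, List.length_append, ih fun i hi => h i (by omega), h n (by omega)]
    ring

theorem cat_add (m n : ℕ) (f : ℕ → List Bool) :
    cat (m + n) f = cat m f ++ cat n fun i => f (m + i) := by
  induction n with
  | zero => simp [cat_zero]
  | succ n ih => rw [← Nat.add_assoc, cat_succ, ih, cat_succ, List.append_assoc]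

/-! ### A row of slots -/

/-- the state after the reduction of a row -/
def St.io (s : St) (i o : List Bool) : St := {s with inp := i, out := o}

theorem row_run (s : St) (ha : s.a' = 0) (hb : s.b' = 0) (hn : s.n' = 0) (hz : s.z = [])
    (hu : s.u = []) (hacc : s.acc = []) (hnew : s.new = []) (hbor : s.bor = [])
    (hab : s.a ≤ 2 * s.b) (y : ℕ → List Bool) (r : List Bool) (hinp : s.inp = cat s.n y ++ r)
    (hy : ∀ w < s.n, (y w).length = 13 * s.b) :
    Runs (.forR .n .n' slotP) s.store
      (s.io r ((cat s.n fun w => E.slot3 s.b s.a (y w)).reverse ++ s.out)).store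
      (s.n * (180 * s.b + 80 + 4) + 2) := by
  refine forR_St (by decide) setN setN_store s.n (180 * s.b + 80)
    (fun i => s.io (cat (s.n - i) (fun w => y (i + w)) ++ r)
      ((cat i fun w => E.slot3 s.b s.a (y w)).reverse ++ s.out)) (fun i hi => ?_) ?_ ?_
  · have h := slot_run (setN (s.io (cat (s.n - i) (fun w => y (i + w)) ++ r)
      ((cat i fun w => E.slot3 s.b s.a (y w)).reverse ++ s.out)) (s.n - (i + 1)) (i + 1))
      ha hb hz hu hacc hnew hbor hab (y i) (cat (s.n - (i + 1)) (fun w => y (i + 1 + w)) ++ r)
      (by simp [setN, St.io, cat_next hi]) (hy i hi)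
    refine h.conv ?_ le_rfl
    simp [setN, St.io, cat_succ]
  · simp only [Nat.sub_zero, Nat.zero_add, cat_zero, List.reverse_nil, List.nil_append]
    rw [← hinp]
    exact (setN_self s hn).symm
  · simp only [Nat.sub_self, cat_zero, List.nil_append]
    exact (setN_self (s.io r ((cat s.n fun w => E.slot3 s.b s.a (y w)).reverse ++ s.out)) hn).symm

/-- skip a row of slots -/
theorem skip_row_run (s : St) (hb : s.b' = 0) (hn : s.n' = 0) :
    Runs (.forR .n .n' (.forR .b .b' (repP 13 (.pop .inp)))) s.store
      (s.skp (s.n * (13 * s.b))).store (s.n * (s.b * 18 + 2 + 4) + 2) := by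
  refine forR_St (by decide) setN setN_store s.n (s.b * 18 + 2)
    (fun i => s.skp (i * (13 * s.b))) (fun i hi => ?_) ?_ ?_
  · have h := for_pop_inp 13 (setN (s.skp (i * (13 * s.b))) (s.n - (i + 1)) (i + 1)) hb
    refine h.conv ?_ le_rfl
    simp [setN, St.skp, Nat.succ_mul]
  · rw [Nat.zero_mul, St.skp_zero, setN_self s hn]
  · exact (setN_self (s.skp _) hn).symm

/-- skip `k` rows -/
theorem skip_rows_run (s : St) (hb : s.b' = 0) (hn : s.n' = 0) (hk : s.k' = 0) :
    Runs (.forR .k .k' (.forR .n .n' (.forR .b .b' (repP 13 (.pop .inp))))) s.store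
      (s.skp (s.k * (s.n * (13 * s.b)))).store
      (s.k * (s.n * (s.b * 18 + 6) + 2 + 4) + 2) := by
  refine forR_St (by decide) setK setK_store s.k (s.n * (s.b * 18 + 6) + 2)
    (fun i => s.skp (i * (s.n * (13 * s.b)))) (fun i hi => ?_) ?_ ?_
  · have h := skip_row_run (setK (s.skp (i * (s.n * (13 * s.b)))) (s.k - (i + 1)) (i + 1)) hb hn
    refine h.conv ?_ le_rfl
    simp [setK, St.skp, Nat.succ_mul]
  · rw [Nat.zero_mul, St.skp_zero, setK_self s hk]
  · exact (setK_self (s.skp _) hk).symm

/-! ### The rows of a group -/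

/-- state with new input, output, exponent pair -/
def St.ioe (s : St) (i o : List Bool) (a c : ℕ) : St := {s with inp := i, out := o, a := a, c := c}

/-- decrease the exponent by the number of ticks of `k'`, modulo `2b` -/
theorem rot_run (s : St) (m : ℕ) (hcc : s.cc = 0) (hj : s.j' = 0) (ha : s.a < m)
    (hc : s.c = m - s.a) (hk : s.k' ≤ m) :
    Runs (.rotSub .a .c .cc .k' .j') s.store
      (s.ioe s.inp s.out ((s.a + (m - s.k')) % m) (m - (s.a + (m - s.k')) % m)).store
      (10 * m + 20) := by
  have h := Runs.rotSub (s := s.store) (A := Q.a) (B := Q.c) (C := Q.cc) (r := Q.k') (q := Q.j')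
    (by decide) (by decide) (by decide) (by decide) (by decide) (by decide) (by decide) (by decide)
    (by decide) (by decide) (t := false) (n := m) (a := s.a) (k := s.k') ha hk rfl
    (by simp [St.store, hc, zer]) (by simp [St.store, hcc, zer]) rfl (by simp [St.store, hj, zer])
  refine h.conv ?_ le_rfl
  funext r'; cases r' <;> simp [St.store, St.ioe, zer]

theorem rows_run (s : St) (ha : s.a' = 0) (hb : s.b' = 0) (hn : s.n' = 0) (hk : s.k' = 0)
    (hj : s.j' = 0) (hcc : s.cc = 0) (hz : s.z = [])
    (hu : s.u = []) (hacc : s.acc = []) (hnew : s.new = []) (hbor : s.bor = [])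
    (hb0 : 0 < s.b) (hkb : s.k = 2 * s.b) (hae : s.a = E.e3 s.b 0) (hce : s.c = 2 * s.b - s.a)
    (y : ℕ → ℕ → List Bool) (r : List Bool)
    (hinp : s.inp = (cat (2 * s.b) fun j => cat s.n (y j)) ++ r)
    (hy : ∀ j < 2 * s.b, ∀ w < s.n, (y j w).length = 13 * s.b) :
    Runs (.forR .k .k' (.seq (.forR .n .n' slotP) (.rotSub .a .c .cc .k' .j'))) s.store
      (s.ioe r ((cat (2 * s.b) fun j => cat s.n fun w => E.slot3 s.b (E.e3 s.b j) (y j w)).reverse
        ++ s.out) (E.e3 s.b (2 * s.b)) (2 * s.b - E.e3 s.b (2 * s.b))).store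
      (2 * s.b * (s.n * (180 * s.b + 84) + 2 + (10 * (2 * s.b) + 20) + 4) + 2) := by
  refine forR_St (by decide) setK setK_store (2 * s.b)
    (s.n * (180 * s.b + 84) + 2 + (10 * (2 * s.b) + 20))
    (fun i => s.ioe ((cat (2 * s.b - i) fun j => cat s.n (y (i + j))) ++ r)
      ((cat i fun j => cat s.n fun w => E.slot3 s.b (E.e3 s.b j) (y j w)).reverse
        ++ s.out) (E.e3 s.b i) (2 * s.b - E.e3 s.b i)) (fun i hi => ?_) ?_ ?_
  · have h1 := row_run (setK (s.ioe ((cat (2 * s.b - i) fun j => cat s.n (y (i + j))) ++ r)
      ((cat i fun j => cat s.n fun w => E.slot3 s.b (E.e3 s.b j) (y j w)).reverse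
        ++ s.out) (E.e3 s.b i) (2 * s.b - E.e3 s.b i)) (2 * s.b - (i + 1)) (i + 1))
      ha hb hn hz hu hacc hnew hbor (E.e3_lt hb0 i).le (y i)
      ((cat (2 * s.b - (i + 1)) fun j => cat s.n (y (i + 1 + j))) ++ r)
      (by
        simp only [setK, St.ioe]
        rw [cat_next hi (fun j => cat s.n (y j)), List.append_assoc]) (hy i hi)
    have h2 := rot_run ((setK (s.ioe ((cat (2 * s.b - i) fun j => cat s.n (y (i + j))) ++ r)
      ((cat i fun j => cat s.n fun w => E.slot3 s.b (E.e3 s.b j) (y j w)).reverse
        ++ s.out) (E.e3 s.b i) (2 * s.b - E.e3 s.b i)) (2 * s.b - (i + 1)) (i + 1)).io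
        ((cat (2 * s.b - (i + 1)) fun j => cat s.n (y (i + 1 + j))) ++ r)
        ((cat s.n fun w => E.slot3 s.b (E.e3 s.b i) (y i w)).reverse ++
        ((cat i fun j => cat s.n fun w => E.slot3 s.b (E.e3 s.b j) (y j w)).reverse ++ s.out)))
        (2 * s.b) hcc hj (E.e3_lt hb0 i) rfl (by simp only [St.io, setK]; omega)
    refine (h1.seq h2).conv ?_ le_rfl
    simp only [setK, St.io, St.ioe]
    rw [← E.e3_succ hb0 i (by omega), cat_succ, List.reverse_append, List.append_assoc]
  · simp only [Nat.sub_zero, Nat.zero_add, cat_zero, List.reverse_nil, List.nil_append]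
    rw [← hinp, ← hae, ← hce]
    have h := setK_self s hk
    rw [hkb] at h
    exact h.symm
  · simp only [Nat.sub_self, cat_zero, List.nil_append]
    have h := setK_self (s.ioe r ((cat (2 * s.b) fun j => cat s.n fun w =>
      E.slot3 s.b (E.e3 s.b j) (y j w)).reverse
        ++ s.out) (E.e3 s.b (2 * s.b)) (2 * s.b - E.e3 s.b (2 * s.b))) hk
    have h' : (s.ioe r ((cat (2 * s.b) fun j => cat s.n fun w =>
      E.slot3 s.b (E.e3 s.b j) (y j w)).reverse
        ++ s.out) (E.e3 s.b (2 * s.b)) (2 * s.b - E.e3 s.b (2 * s.b))).k = 2 * s.b := hkb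
    rw [h'] at h
    exact h.symm

/-! ### A group -/

/-- one group -/
def groupP : Prog Q Bool :=
  .seq (.fill .k .k' .c false)
  (.seq (.rotSub .a .c .cc .l .l')
  (.seq (.push .u false)
  (.seq (.rotSub .a .c .cc .u .l')
  (.seq (.pop .u)
  (.seq (.forR .k .k' (.forR .n .n' (.forR .b .b' (repP 13 (.pop .inp)))))
  (.seq (.forR .k .k' (.seq (.forR .n .n' slotP) (.rotSub .a .c .cc .k' .j')))
  (.seq (.clear .a) (.clear .c))))))))

theorem e3_zero_eq (β : ℕ) :
    E.e3 (2 ^ β) 0 = 2 * 2 ^ β - β - 1 := by
  rw [E.e3_zero_of_pow]; omega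

theorem group_run (s : St) (β : ℕ) (ha : s.a' = 0) (hb : s.b' = 0) (hn : s.n' = 0) (hk : s.k' = 0)
    (hj : s.j' = 0) (hl : s.l' = 0) (hcc : s.cc = 0) (hz : s.z = [])
    (hu : s.u = []) (hacc : s.acc = []) (hnew : s.new = []) (hbor : s.bor = [])
    (hbb : s.b = 2 ^ β) (hkb : s.k = 2 * s.b) (hlb : s.l = β) (hae : s.a = 0) (hce : s.c = 0)
    (y : ℕ → ℕ → List Bool) (r : List Bool)
    (hinp : s.inp = (cat (4 * s.b) fun j => cat s.n (y j)) ++ r)
    (hy : ∀ j < 4 * s.b, ∀ w < s.n, (y j w).length = 13 * s.b) :
    Runs groupP s.store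
      (s.io r ((cat (2 * s.b) fun j => cat s.n fun w =>
        E.slot3 s.b (E.e3 s.b j) (y (2 * s.b + j) w)).reverse ++ s.out)).store
      (2 * s.b * (s.n * (198 * s.b + 90)) + 40 * (s.b * s.b) + 200 * s.b + 100) := by
  have hb0 : 0 < s.b := by rw [hbb]; positivity
  have hβ : β < s.b := by rw [hbb]; exact Nat.lt_two_pow_self
  have he3 : E.e3 s.b 0 = 2 * s.b - β - 1 := by rw [hbb]; exact e3_zero_eq β
  -- c := 2b ticks
  have h1 := Runs.fill (s := s.store) (r := Q.k) (q := Q.k') (dst := .c) (a := false) (b := false)
    (n := 2 * s.b) (by decide) (by decide) (by decide) (by simp [St.store, hkb, zer])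
    (by simp [St.store, hk, zer])
  have e1 : Function.update s.store Q.c (List.replicate (2 * s.b) false ++ s.store Q.c) =
      (s.ioe s.inp s.out 0 (2 * s.b)).store := by
    funext r'; cases r' <;> simp [St.store, St.ioe, hae, hce, zer]
  rw [e1] at h1
  -- subtract β
  have h2 := Runs.rotSub (s := (s.ioe s.inp s.out 0 (2 * s.b)).store) (A := Q.a) (B := Q.c)
    (C := Q.cc) (r := Q.l) (q := Q.l')
    (by decide) (by decide) (by decide) (by decide) (by decide) (by decide) (by decide) (by decide)
    (by decide) (by decide) (t := false) (n := 2 * s.b) (a := 0) (k := β) (by omega) (by omega) rfl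
    (by simp [St.store, St.ioe, zer]) (by simp [St.store, St.ioe, hcc, zer])
    (by simp [St.store, St.ioe, hlb, zer])
    (by simp [St.store, St.ioe, hl, zer])
  set a1 := (0 + (2 * s.b - β)) % (2 * s.b) with ha1
  have e2 : Function.update (Function.update (s.ioe s.inp s.out 0 (2 * s.b)).store Q.a
      (List.replicate a1 false)) Q.c (List.replicate (2 * s.b - a1) false) =
      (s.ioe s.inp s.out a1 (2 * s.b - a1)).store := by
    funext r'; cases r' <;> simp [St.store, St.ioe, zer]
  rw [e2] at h2
  have ha1lt : a1 < 2 * s.b := Nat.mod_lt _ (by omega)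
  -- subtract 1
  have h3 := Runs.push Q.u false (s.ioe s.inp s.out a1 (2 * s.b - a1)).store
  have e3 : Function.update (s.ioe s.inp s.out a1 (2 * s.b - a1)).store Q.u
      (false :: (s.ioe s.inp s.out a1 (2 * s.b - a1)).store Q.u) =
      ({s.ioe s.inp s.out a1 (2 * s.b - a1) with u := [false]} : St).store := by
    funext r'; cases r' <;> simp [St.store, St.ioe, hu]
  rw [e3] at h3
  have h4 := Runs.rotSub (s := ({s.ioe s.inp s.out a1 (2 * s.b - a1) with u := [false]} : St).store)
    (A := Q.a) (B := Q.c) (C := Q.cc) (r := Q.u) (q := Q.l')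
    (by decide) (by decide) (by decide) (by decide) (by decide) (by decide) (by decide) (by decide)
    (by decide) (by decide) (t := false) (n := 2 * s.b) (a := a1) (k := 1) ha1lt (by omega) rfl
    rfl (by simp [St.store, St.ioe, hcc, zer])
    rfl (by simp [St.store, St.ioe, hl, zer])
  have ha2 : (a1 + (2 * s.b - 1)) % (2 * s.b) = E.e3 s.b 0 := by
    rw [he3, ha1, Nat.zero_add]
    rcases Nat.eq_zero_or_pos β with h0 | h0
    · subst h0
      rw [Nat.sub_zero, Nat.mod_self, Nat.zero_add, Nat.mod_eq_of_lt (by omega)]
    · rw [Nat.mod_eq_of_lt (a := 2 * s.b - β) (by omega)]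
      have : 2 * s.b - β + (2 * s.b - 1) = 2 * s.b + (2 * s.b - β - 1) := by omega
      rw [this, Nat.add_mod_left, Nat.mod_eq_of_lt (by omega)]
  rw [ha2] at h4
  have h5 := Runs.pop Q.u (Function.update (Function.update
    ({s.ioe s.inp s.out a1 (2 * s.b - a1) with u := [false]} : St).store Q.a
    (List.replicate (E.e3 s.b 0) false)) Q.c (List.replicate (2 * s.b - E.e3 s.b 0) false))
  have e5 : Function.update (Function.update (Function.update
    ({s.ioe s.inp s.out a1 (2 * s.b - a1) with u := [false]} : St).store Q.a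
    (List.replicate (E.e3 s.b 0) false)) Q.c (List.replicate (2 * s.b - E.e3 s.b 0) false)) Q.u
    (Function.update (Function.update
    ({s.ioe s.inp s.out a1 (2 * s.b - a1) with u := [false]} : St).store Q.a
    (List.replicate (E.e3 s.b 0) false)) Q.c (List.replicate (2 * s.b - E.e3 s.b 0) false)
      Q.u).tail = (s.ioe s.inp s.out (E.e3 s.b 0) (2 * s.b - E.e3 s.b 0)).store := by
    funext r'; cases r' <;> simp [St.store, St.ioe, zer, hu]
  rw [e5] at h5
  -- skip
  have h6 := skip_rows_run (s.ioe s.inp s.out (E.e3 s.b 0) (2 * s.b - E.e3 s.b 0)) hb hn hk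
  have hlen : (cat (2 * s.b) fun j => cat s.n (y j)).length = s.k * (s.n * (13 * s.b)) := by
    rw [hkb]
    refine cat_length fun i hi => cat_length fun w hw => hy i (by omega) w hw
  have e6 : ((s.ioe s.inp s.out (E.e3 s.b 0) (2 * s.b - E.e3 s.b 0)).skp
      (s.k * (s.n * (13 * s.b)))) =
      s.ioe ((cat (2 * s.b) fun j => cat s.n (y (2 * s.b + j))) ++ r) s.out
        (E.e3 s.b 0) (2 * s.b - E.e3 s.b 0) := by
    simp only [St.skp, St.ioe]
    congr 1
    rw [hinp, show 4 * s.b = 2 * s.b + 2 * s.b by ring, cat_add, List.append_assoc, ← hlen,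
      List.drop_left]
  have h6' : Runs (.forR .k .k' (.forR .n .n' (.forR .b .b' (repP 13 (.pop .inp)))))
      (s.ioe s.inp s.out (E.e3 s.b 0) (2 * s.b - E.e3 s.b 0)).store
      (s.ioe ((cat (2 * s.b) fun j => cat s.n (y (2 * s.b + j))) ++ r) s.out
        (E.e3 s.b 0) (2 * s.b - E.e3 s.b 0)).store
      (2 * s.b * (s.n * (s.b * 18 + 6) + 2 + 4) + 2) := by
    refine h6.conv (congrArg St.store e6) ?_
    simp only [St.ioe, hkb]
    exact le_rfl
  -- rows
  have h7 := rows_run (s.ioe ((cat (2 * s.b) fun j => cat s.n (y (2 * s.b + j))) ++ r) s.out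
        (E.e3 s.b 0) (2 * s.b - E.e3 s.b 0)) ha hb hn hk hj hcc hz hu hacc hnew hbor hb0 hkb rfl rfl
        (fun j => y (2 * s.b + j)) r rfl (fun j hj w hw => hy _ (by simp only [St.ioe] at hj; omega) w hw)
  -- clear
  set s7 := ((s.ioe ((cat (2 * s.b) fun j => cat s.n (y (2 * s.b + j))) ++ r) s.out
        (E.e3 s.b 0) (2 * s.b - E.e3 s.b 0)).ioe r ((cat (2 * s.b) fun j => cat s.n fun w =>
        E.slot3 s.b (E.e3 s.b j) (y (2 * s.b + j) w)).reverse
        ++ s.out) (E.e3 s.b (2 * s.b)) (2 * s.b - E.e3 s.b (2 * s.b))) with hs7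
  have h8 := Runs.clear Q.a s7.store
  have h9 := Runs.clear Q.c (Function.update s7.store Q.a [])
  refine (h1.seq (h2.seq (h3.seq (h4.seq (h5.seq (h6'.seq (h7.seq (h8.seq h9)))))))).conv ?_ ?_
  · funext r'
    cases r' <;> simp [hs7, St.store, St.ioe, St.io, hae, hce, zer]
  · have h10 : (s7.store Q.a).length = E.e3 s.b (2 * s.b) := by
      simp [hs7, St.store, St.ioe, zer]
    have h11 : (Function.update s7.store Q.a [] Q.c).length = 2 * s.b - E.e3 s.b (2 * s.b) := by
      simp [hs7, St.store, St.ioe, zer]
    rw [h10, h11]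
    simp only [St.ioe]
    have h12 := E.e3_lt hb0 (2 * s.b)
    have h13 : 2 * E.e3 s.b (2 * s.b) + 1 + (2 * (2 * s.b - E.e3 s.b (2 * s.b)) + 1) =
      4 * s.b + 2 := by omega
    rw [h13]
    have h14 : 5 * (2 * s.b) + 2 + (10 * (2 * s.b) + 20 + (1 + (10 * (2 * s.b) + 20 + (1 +
      (2 * s.b * (s.n * (s.b * 18 + 6) + 2 + 4) + 2 +
      (2 * s.b * (s.n * (180 * s.b + 84) + 2 + (10 * (2 * s.b) + 20) + 4) + 2 +
      (4 * s.b + 2))))))) =
      2 * s.b * (s.n * (198 * s.b + 90)) + 40 * (s.b * s.b) + 118 * s.b + 50 := by ring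
    rw [h14]
    omega

/-! ### All groups -/

/-- all groups, then the output is turned over and the rest of the input is thrown away -/
def f3P : Prog Q Bool :=
  .seq (.forR .g .g' groupP) (.seq (.flip .out .X) (.clear .inp))

theorem slot3_length {b a : ℕ} (y : List Bool) : (E.slot3 b a y).length = b := by
  unfold E.slot3
  exact length_lbits _ _

theorem groups_run (s : St) (β : ℕ) (ha : s.a' = 0) (hb : s.b' = 0) (hn : s.n' = 0)
    (hk : s.k' = 0) (hg : s.g' = 0)
    (hj : s.j' = 0) (hl : s.l' = 0) (hcc : s.cc = 0) (hz : s.z = [])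
    (hu : s.u = []) (hacc : s.acc = []) (hnew : s.new = []) (hbor : s.bor = [])
    (hbb : s.b = 2 ^ β) (hkb : s.k = 2 * s.b) (hlb : s.l = β) (hae : s.a = 0) (hce : s.c = 0)
    (y : ℕ → ℕ → ℕ → List Bool) (r : List Bool)
    (hinp : s.inp = E.slotS s.n s.b s.g y ++ r)
    (hy : ∀ g < s.g, ∀ j < 4 * s.b, ∀ w < s.n, (y g j w).length = 13 * s.b) :
    Runs (.forR .g .g' groupP) s.store
      (s.io r ((E.f3 s.n s.b s.g y).reverse ++ s.out)).store
      (s.g * (2 * s.b * (s.n * (198 * s.b + 90)) + 40 * (s.b * s.b) + 200 * s.b + 104) + 2) := by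
  refine forR_St (by decide) setG setG_store s.g
    (2 * s.b * (s.n * (198 * s.b + 90)) + 40 * (s.b * s.b) + 200 * s.b + 100)
    (fun i => s.io ((cat (s.g - i) fun g => cat (4 * s.b) fun j => cat s.n (y (i + g) j)) ++ r)
      ((cat i fun g => cat (2 * s.b) fun j => cat s.n fun w =>
        E.slot3 s.b (E.e3 s.b j) (y g (2 * s.b + j) w)).reverse ++ s.out))
    (fun i hi => ?_) ?_ ?_
  · have h1 := group_run (setG (s.io ((cat (s.g - i) fun g => cat (4 * s.b) fun j =>
      cat s.n (y (i + g) j)) ++ r)
      ((cat i fun g => cat (2 * s.b) fun j => cat s.n fun w =>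
        E.slot3 s.b (E.e3 s.b j) (y g (2 * s.b + j) w)).reverse ++ s.out)) (s.g - (i + 1)) (i + 1))
      β ha hb hn hk hj hl hcc hz hu hacc hnew hbor hbb hkb hlb hae hce (y i)
      ((cat (s.g - (i + 1)) fun g => cat (4 * s.b) fun j => cat s.n (y (i + 1 + g) j)) ++ r)
      (by
        simp only [setG, St.io]
        rw [cat_next hi (fun g => cat (4 * s.b) fun j => cat s.n (y g j)), List.append_assoc])
      (hy i hi)
    refine h1.conv ?_ le_rfl
    simp only [setG, St.io]
    rw [cat_succ, List.reverse_append, List.append_assoc]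
  · simp only [Nat.sub_zero, Nat.zero_add, cat_zero, List.reverse_nil, List.nil_append]
    have : s.io ((cat s.g fun g => cat (4 * s.b) fun j => cat s.n (y g j)) ++ r) s.out = s := by
      unfold St.io
      rw [show (cat s.g fun g => cat (4 * s.b) fun j => cat s.n (y g j)) ++ r = s.inp from
        hinp.symm]
    rw [this]
    exact (setG_self s hg).symm
  · simp only [Nat.sub_self, cat_zero, List.nil_append]
    exact (setG_self (s.io r ((E.f3 s.n s.b s.g y).reverse ++ s.out)) hg).symm

theorem f3P_run (s : St) (β : ℕ) (ha : s.a' = 0) (hb : s.b' = 0) (hn : s.n' = 0)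
    (hk : s.k' = 0) (hg : s.g' = 0)
    (hj : s.j' = 0) (hl : s.l' = 0) (hcc : s.cc = 0) (hz : s.z = [])
    (hu : s.u = []) (hacc : s.acc = []) (hnew : s.new = []) (hbor : s.bor = [])
    (hbb : s.b = 2 ^ β) (hkb : s.k = 2 * s.b) (hlb : s.l = β) (hae : s.a = 0) (hce : s.c = 0)
    (hX : s.X = []) (hout : s.out = []) (hn0 : 0 < s.n)
    (y : ℕ → ℕ → ℕ → List Bool) (r : List Bool)
    (hinp : s.inp = E.slotS s.n s.b s.g y ++ r)
    (hy : ∀ g < s.g, ∀ j < 4 * s.b, ∀ w < s.n, (y g j w).length = 13 * s.b) :
    Runs f3P s.store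
      (Function.update (Function.update s.store .inp []) .X (E.f3 s.n s.b s.g y))
      (500 * (s.g * (2 * s.b * (s.n * s.b))) + 2 * r.length + 10) := by
  have hb0 : 0 < s.b := by rw [hbb]; positivity
  have h1 := groups_run s β ha hb hn hk hg hj hl hcc hz hu hacc hnew hbor hbb hkb hlb hae hce y r
    hinp hy
  rw [hout, List.append_nil] at h1
  have h2 := Runs.flip (r := Q.out) (q := Q.X) (by decide)
    (s.io r (E.f3 s.n s.b s.g y).reverse).store
  have h3 := Runs.clear Q.inp (Function.update (Function.update
    (s.io r (E.f3 s.n s.b s.g y).reverse).store Q.out []) Q.X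
    (((s.io r (E.f3 s.n s.b s.g y).reverse).store Q.out).reverse ++
      (s.io r (E.f3 s.n s.b s.g y).reverse).store Q.X))
  refine (h1.seq (h2.seq h3)).conv ?_ ?_
  · funext r'
    cases r' <;> simp [St.store, St.io, hX, hout]
  · have hlen : (E.f3 s.n s.b s.g y).length = s.g * (2 * s.b * (s.n * s.b)) := by
      refine cat_length fun g _ => cat_length fun j _ => cat_length fun w _ => slot3_length _
    have h4 : ((s.io r (E.f3 s.n s.b s.g y).reverse).store Q.out).length =
        s.g * (2 * s.b * (s.n * s.b)) := by
      simp [St.store, St.io, hlen]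
    have h5 : (Function.update (Function.update
      (s.io r (E.f3 s.n s.b s.g y).reverse).store Q.out []) Q.X
      (((s.io r (E.f3 s.n s.b s.g y).reverse).store Q.out).reverse ++
      (s.io r (E.f3 s.n s.b s.g y).reverse).store Q.X) Q.inp).length = r.length := by
      simp [St.store, St.io]
    rw [h4, h5]
    have h6 : 2 * s.b * (s.n * (198 * s.b + 90)) + 40 * (s.b * s.b) + 200 * s.b + 104 ≤
        498 * (2 * s.b * (s.n * s.b)) := by
      have hA : s.b ≤ s.n * (s.b * s.b) := by
        calc s.b = 1 * (1 * s.b) := by ring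
          _ ≤ s.n * (s.b * s.b) := Nat.mul_le_mul hn0 (Nat.mul_le_mul_right _ hb0)
      have hB : s.b * s.b ≤ s.n * (s.b * s.b) := Nat.le_mul_of_pos_left _ hn0
      have hC : s.n * s.b ≤ s.n * (s.b * s.b) :=
        Nat.mul_le_mul_left _ (Nat.le_mul_of_pos_left _ hb0)
      have hD : 2 * s.b * (s.n * (198 * s.b + 90)) = 396 * (s.n * (s.b * s.b)) +
        180 * (s.n * s.b) := by ring
      have hE : 498 * (2 * s.b * (s.n * s.b)) = 996 * (s.n * (s.b * s.b)) := by ring
      rw [hD, hE]
      omega
    have h7 := Nat.mul_le_mul_left s.g h6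
    have h8 : s.g * (498 * (2 * s.b * (s.n * s.b))) = 498 * (s.g * (2 * s.b * (s.n * s.b))) := by
      ring
    rw [h8] at h7
    omega

/-! ### The ruler `log2 b` -/

/-- `new := ⌈u / 2⌉`, `u := 0` -/
def halfP : Prog Q Bool := .whileNE .u (.seq (.mv .u .new) (.pop .u))

theorem half_run (m : ℕ) (s : St) (hu : s.u = zer (2 * m + 1)) :
    Runs halfP s.store {s with u := [], new := zer (m + 1) ++ s.new}.store
      (3 * (m + 1) + 1) := by
  induction m generalizing s with
  | zero =>
    have h1 := Runs.mv_cons (s := s.store) (r := Q.u) (q := Q.new) (by decide) (a := false)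
      (l := []) hu
    have h2 := Runs.pop Q.u (Function.update (Function.update s.store Q.u []) Q.new
      (false :: s.store Q.new))
    refine (Runs.whileNE_cons (s := s.store) (r := .u) (a := false) (l := []) hu (h1.seq h2)
      (Runs.whileNE_nil (by simp))).conv ?_ (by omega)
    funext r'; cases r' <;> simp [St.store, zer]
  | succ m ih =>
    have hu' : s.u = false :: false :: zer (2 * m + 1) := by
      rw [hu, show 2 * (m + 1) + 1 = (2 * m + 1) + 1 + 1 by ring, zer_succ, zer_succ]
    have h1 := Runs.mv_cons (s := s.store) (r := Q.u) (q := Q.new) (by decide) (a := false)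
      (l := false :: zer (2 * m + 1)) hu'
    have h2 := Runs.pop Q.u (Function.update (Function.update s.store Q.u
      (false :: zer (2 * m + 1))) Q.new (false :: s.store Q.new))
    have e2 : Function.update (Function.update (Function.update s.store Q.u
      (false :: zer (2 * m + 1))) Q.new (false :: s.store Q.new)) Q.u
      (Function.update (Function.update s.store Q.u
      (false :: zer (2 * m + 1))) Q.new (false :: s.store Q.new) Q.u).tail =
      ({s with u := zer (2 * m + 1), new := false :: s.new} : St).store := by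
      funext r'; cases r' <;> simp [St.store]
    rw [e2] at h2
    have h3 := ih {s with u := zer (2 * m + 1), new := false :: s.new} rfl
    refine (Runs.whileNE_cons (s := s.store) (r := .u) (a := false)
      (l := false :: zer (2 * m + 1)) hu' (h1.seq h2) h3).conv ?_ (by omega)
    have h4 : zer (m + 1) ++ false :: s.new = zer (m + 1 + 1) ++ s.new := by
      have : false :: s.new = zer 1 ++ s.new := rfl
      rw [this, ← List.append_assoc, zer_append]
    simp only [h4]

/-- `l := l + log2 u`, `u := 0` -/
def logP : Prog Q Bool :=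
  .whileNE .u (.seq (.pop .u) (.peek .u fun o =>
    if o.isSome then .seq (.push .l false) (.seq halfP (.flip .new .u)) else .nop))

theorem log_run (i : ℕ) (s : St) (hu : s.u = zer (2 ^ i)) (hnew : s.new = []) :
    Runs logP s.store {s with u := [], l := s.l + i}.store (5 * 2 ^ i + 6 * i + 5) := by
  induction i generalizing s with
  | zero =>
    have hu1 : s.u = [false] := hu
    have h1 := Runs.pop Q.u s.store
    have e1 : Function.update s.store Q.u (s.store Q.u).tail = ({s with u := []} : St).store := by
      funext r'; cases r' <;> simp [St.store, hu1]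
    rw [e1] at h1
    have h2 : Runs (.peek .u fun o => if o.isSome then
        .seq (.push .l false) (.seq halfP (.flip .new .u)) else .nop : Prog Q Bool)
        ({s with u := []} : St).store ({s with u := []} : St).store 2 :=
      Runs.peek (Runs.nop _)
    refine (Runs.whileNE_cons (s := s.store) (r := .u) (a := false) (l := []) hu1 (h1.seq h2)
      (Runs.whileNE_nil rfl)).conv ?_ (by omega)
    simp
  | succ i ih =>
    obtain ⟨m, hm⟩ : ∃ m, 2 ^ i = m + 1 := ⟨2 ^ i - 1, by have := Nat.two_pow_pos i; omega⟩
    have h22 : 2 ^ (i + 1) = 2 * m + 2 := by rw [pow_succ, hm]; ring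
    have hu1 : s.u = false :: zer (2 * m + 1) := by
      rw [hu, h22]; rfl
    have h1 := Runs.pop Q.u s.store
    have e1 : Function.update s.store Q.u (s.store Q.u).tail =
        ({s with u := zer (2 * m + 1)} : St).store := by
      funext r'; cases r' <;> simp [St.store, hu1]
    rw [e1] at h1
    have h2 := Runs.push Q.l false ({s with u := zer (2 * m + 1)} : St).store
    have e2 : Function.update ({s with u := zer (2 * m + 1)} : St).store Q.l
        (false :: ({s with u := zer (2 * m + 1)} : St).store Q.l) =
        ({s with u := zer (2 * m + 1), l := s.l + 1} : St).store := by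
      funext r'; cases r' <;> simp [St.store, zer_succ]
    rw [e2] at h2
    have h3 := half_run m ({s with u := zer (2 * m + 1), l := s.l + 1} : St) rfl
    have h4 := Runs.flip (r := Q.new) (q := Q.u) (by decide)
      (St.store {s with u := [], l := s.l + 1, new := zer (m + 1) ++ s.new})
    have e4 : Function.update (Function.update
        (St.store {s with u := [], l := s.l + 1, new := zer (m + 1) ++ s.new}) Q.new []) Q.u
        ((St.store {s with u := [], l := s.l + 1, new := zer (m + 1) ++ s.new} Q.new).reverse ++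
          St.store {s with u := [], l := s.l + 1, new := zer (m + 1) ++ s.new} Q.u) =
        ({s with u := zer (2 ^ i), l := s.l + 1} : St).store := by
      funext r'; cases r' <;> simp [St.store, hnew, zer_reverse, hm]
    rw [e4] at h4
    have h5 : Runs (.peek .u fun o => if o.isSome then
        .seq (.push .l false) (.seq halfP (.flip .new .u)) else .nop : Prog Q Bool)
        ({s with u := zer (2 * m + 1)} : St).store
        ({s with u := zer (2 ^ i), l := s.l + 1} : St).store _ :=
      Runs.peek (h2.seq (h3.seq h4))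
    have h6 := ih ({s with u := zer (2 ^ i), l := s.l + 1} : St) rfl hnew
    refine (Runs.whileNE_cons (s := s.store) (r := .u) (a := false) (l := zer (2 * m + 1)) hu1
      (h1.seq h5) h6).conv ?_ ?_
    · rw [show s.l + (i + 1) = s.l + 1 + i by ring]
    · simp [St.store, hnew, zer_length]
      omega

/-- The pass, with the computation of the ruler `log2 b`. -/
def f3Q : Prog Q Bool :=
  .seq (.fill .b .b' .u false) (.seq logP (.seq f3P (.clear .l)))

theorem f3Q_run (s : St) (β : ℕ) (ha : s.a' = 0) (hb : s.b' = 0) (hn : s.n' = 0)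
    (hk : s.k' = 0) (hg : s.g' = 0)
    (hj : s.j' = 0) (hl : s.l' = 0) (hcc : s.cc = 0) (hz : s.z = [])
    (hu : s.u = []) (hacc : s.acc = []) (hnew : s.new = []) (hbor : s.bor = [])
    (hbb : s.b = 2 ^ β) (hkb : s.k = 2 * s.b) (hlb : s.l = 0) (hae : s.a = 0) (hce : s.c = 0)
    (hX : s.X = []) (hout : s.out = []) (hn0 : 0 < s.n)
    (y : ℕ → ℕ → ℕ → List Bool) (r : List Bool)
    (hinp : s.inp = E.slotS s.n s.b s.g y ++ r)
    (hy : ∀ g < s.g, ∀ j < 4 * s.b, ∀ w < s.n, (y g j w).length = 13 * s.b) :
    Runs f3Q s.store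
      (Function.update (Function.update s.store .inp []) .X (E.f3 s.n s.b s.g y))
      (500 * (s.g * (2 * s.b * (s.n * s.b))) + 2 * r.length + 20 * s.b + 20) := by
  have h1 := Runs.fill (s := s.store) (r := Q.b) (q := Q.b') (dst := .u) (a := false) (b := false)
    (n := s.b) (by decide) (by decide) (by decide) rfl (by simp [St.store, hb, zer])
  have e1 : Function.update s.store Q.u (List.replicate s.b false ++ s.store Q.u) =
      ({s with u := zer (2 ^ β)} : St).store := by
    funext r'; cases r' <;> simp [St.store, hu, zer, hbb]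
  rw [e1] at h1
  have h2 := log_run β ({s with u := zer (2 ^ β)} : St) rfl hnew
  have e2 : ({s with u := [], l := s.l + β} : St).store = ({s with l := β} : St).store := by
    funext r'; cases r' <;> simp [St.store, hlb, hu]
  simp only [] at h2
  rw [e2] at h2
  have h3 := f3P_run ({s with l := β} : St) β ha hb hn hk hg hj hl hcc hz hu hacc hnew hbor hbb hkb
    rfl hae hce hX hout hn0 y r hinp hy
  have h4 := Runs.clear Q.l (Function.update (Function.update ({s with l := β} : St).store .inp [])
    .X (E.f3 s.n s.b s.g y))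
  refine (h1.seq (h2.seq (h3.seq h4))).conv ?_ ?_
  · funext r'; cases r' <;> simp [St.store, zer, hlb]
  · have h5 : (Function.update (Function.update ({s with l := β} : St).store .inp [])
      .X (E.f3 s.n s.b s.g y) Q.l).length = β := by
      simp [St.store, zer]
    rw [h5, hbb]
    have : β < 2 ^ β := Nat.lt_two_pow_self
    simp only []
    omega

/-! ### The program on the global registers -/

/-- registers -/
def reg : Q → Reg
  | .inp => .cz
  | .X => .X
  | .out => .t0
  | .z => .t1
  | .u => .t2
  | .acc => .t3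
  | .new => .t4
  | .bor => .t5
  | .a => .aA
  | .a' => .t6
  | .c => .aB
  | .cc => .t7
  | .b => .rB
  | .b' => .t8
  | .n => .rn
  | .n' => .t9
  | .k => .rK
  | .k' => .t10
  | .j' => .t11
  | .g => .rG
  | .g' => .t12
  | .l => .t14
  | .l' => .t13

theorem reg_injective : Function.Injective reg := by
  intro x y h
  cases x <;> cases y <;> first | rfl | exact absurd h (by decide)

/-- **The third pass.** -/
noncomputable def F3 : Prog Reg Bool := f3Q.ren reg

/-- **Third pass**: from the slots of the second product (on `cz`, followed by anything) to the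
words of the result (on `X`). -/
theorem F3_runs (s : Store Reg Bool) (n β Gr : ℕ) (y : ℕ → ℕ → ℕ → List Bool) (r : List Bool)
    (hn0 : 0 < n)
    (hcz : s .cz = E.slotS n (2 ^ β) Gr y ++ r) (hX : s .X = [])
    (hrn : s .rn = zer n) (hrB : s .rB = zer (2 ^ β)) (hrK : s .rK = zer (2 * 2 ^ β))
    (hrG : s .rG = zer Gr) (haA : s .aA = []) (haB : s .aB = [])
    (ht0 : s .t0 = []) (ht1 : s .t1 = []) (ht2 : s .t2 = []) (ht3 : s .t3 = [])
    (ht4 : s .t4 = []) (ht5 : s .t5 = []) (ht6 : s .t6 = []) (ht7 : s .t7 = [])
    (ht8 : s .t8 = []) (ht9 : s .t9 = []) (ht10 : s .t10 = []) (ht11 : s .t11 = [])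
    (ht12 : s .t12 = []) (ht13 : s .t13 = []) (ht14 : s .t14 = [])
    (hy : ∀ g < Gr, ∀ j < 4 * 2 ^ β, ∀ w < n, (y g j w).length = 13 * 2 ^ β) :
    Runs F3 s (Function.update (Function.update s .cz []) .X (E.f3 n (2 ^ β) Gr y))
      (500 * (Gr * (2 * 2 ^ β * (n * 2 ^ β))) + 2 * r.length + 20 * 2 ^ β + 20) := by
  let t : St := {
    inp := s .cz, X := [], out := [], z := [], u := [], acc := [], new := [], bor := []
    a := 0, a' := 0, c := 0, cc := 0, b := 2 ^ β, b' := 0, n := n, n' := 0
    k := 2 * 2 ^ β, k' := 0, j' := 0, g := Gr, g' := 0, l := 0, l' := 0 }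
  have h := f3Q_run t β rfl rfl rfl rfl rfl rfl rfl rfl rfl rfl rfl rfl rfl rfl rfl rfl rfl rfl rfl
    rfl hn0 y r hcz hy
  have h' := h.ren' reg_injective s (by
    intro x
    cases x <;> simp [t, reg, St.store, zer, *])
  refine h'.conv ?_ le_rfl
  funext x
  by_cases hx : ∃ y, reg y = x
  · obtain ⟨q, rfl⟩ := hx
    rw [put_apply reg_injective]
    cases q <;> simp [t, reg, St.store, zer, *]
  · rw [put_of_not _ _ hx]
    have h1 : x ≠ .cz := fun h => hx ⟨.inp, h.symm⟩
    have h2 : x ≠ .X := fun h => hx ⟨.X, h.symm⟩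
    simp [h1, h2]

end Vale.Agent.P338.H765
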