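import Vale.Agent.P338.H765.F3
import Vale.Agent.P338.H931.Parts

/-!
# The third pass in the form used by the fast operation
-/

namespace Vale.Agent.P338.H765

open Vale.Agent.P338
open Function (update)

theorem F3_part (s : Store Reg Bool) (mu n Gr m : ℕ) (y : ℕ → ℕ → ℕ → List Bool)
    (rest : List Bool) (hn : n = 2 * 2 ^ mu * 2 ^ mu * Gr) (hGr : 0 < Gr) (hm : n * n ≤ m)
    (hT : TmpClean s) (hR : Rul s n (2 ^ mu)) (hX : s .X = [])
    (hy : ∀ g r w, g < Gr → r < 4 * 2 ^ mu → w < n → (y g r w).length = 13 * 2 ^ mu)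
    (hcz : s .cz = E.slotS n (2 ^ mu) Gr y ++ rest) (hlen : (s .cz).length ≤ 2 * m) :
    Runs F3 s (update (update s .cz []) .X (E.f3 n (2 ^ mu) Gr y)) (600 * m) := by
  have hb : 0 < 2 ^ mu := by positivity
  have hn0 : 0 < n := by rw [hn]; positivity
  have hG : n / (2 * 2 ^ mu * 2 ^ mu) = Gr := by
    rw [hn, Nat.mul_div_cancel_left _ (by positivity)]
  have h := F3_runs s n mu Gr y rest hn0 hcz hX hR.rn hR.rB hR.rK (by rw [hR.rG, hG])
    (hT _ rfl) (hT _ rfl) (hT _ rfl) (hT _ rfl) (hT _ rfl) (hT _ rfl) (hT _ rfl) (hT _ rfl)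
    (hT _ rfl) (hT _ rfl) (hT _ rfl) (hT _ rfl) (hT _ rfl) (hT _ rfl) (hT _ rfl) (hT _ rfl)
    (hT _ rfl) (fun g hg j hj w hw => hy g j w hg hj hw)
  refine h.weaken ?_
  have h1 : Gr * (2 * 2 ^ mu * (n * 2 ^ mu)) = n * n := by
    conv_rhs => rw [hn]
    rw [hn]; ring
  have h2 : rest.length ≤ 2 * m := by
    rw [hcz, List.length_append] at hlen
    omega
  have h3 : 2 ^ mu ≤ n := by
    rw [hn]
    calc 2 ^ mu = 1 * 2 ^ mu * 1 := by ring
      _ ≤ 2 * 2 ^ mu * 2 ^ mu * Gr := by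
        refine Nat.mul_le_mul (Nat.mul_le_mul (by omega) le_rfl) hGr
  have h4 : n ≤ n * n := Nat.le_mul_of_pos_left n hn0
  rw [h1]
  omega

end Vale.Agent.P338.H765
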